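import Vale.Agent.P088.R2.H710.EP.DC
import Vale.Agent.P088.R2.H808.A.Sym
import Vale.Agent.P088.R2.H912.A.Sup
import Vale.Agent.P088.R2.H737.G.Gn
import Vale.Agent.P088.R2.H455.E.Lett

/-!
# P088, stage 3, EST': the payments of the pairs of leaves of zone A

`pay_AA`: for bounded cut-offs the cost `coA` is paid by the margin `MA` with the same `m` (small
`η`, large `M₀`). `payA_all`: the pairs `{A1, A2} x {A1, A2}` where `tinf ≤ 0`, in the final letters.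
-/

open Set Filter
open scoped ContDiff Topology Matrix

noncomputable section

namespace Vale.Agent.P088.R2.H552.E

open Vale.Agent.P088.LR Vale.Agent.P088.R2.H31.EP
open Vale.Agent.P088.HY hiding rr
open Vale.Agent.P088.R2.H961.GW
open Vale.Agent.P088.R2.H867.EP (Zo)
open Vale.Agent.P088.R2.H464.Cu (bf)
open Vale.Agent.P088.R2.H747.SW (MA coA rh)
open Vale.Agent.P088.R2.H455.E

variable {n : ℕ} {q : Cst} {d : Pk n} {z : VV n}

theorem Dx_eq (i : Fin n) (f : VV n → ℝ) (z : VV n) : d.sx.D i f z = dx i f z := one_mul _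

theorem Dy_eq (i : Fin n) (f : VV n → ℝ) (z : VV n) : d.sy.D i f z = dy i f z := one_mul _

/-- `Γ(f, f) ≤ 3/2 |f_x|²`. -/
theorem G_x (h : PkOk q d) (hε : n * q.ε ≤ 1 / 2) (f : VV n → ℝ) (z : VV n) :
    d.sx.Γ f f z ≤ 3 / 2 * ∑ i, d.sx.D i f z ^ 2 := by
  have h1 := bf_close (h.s₁_close z.1) (fun i => d.sx.D i f z)
  have h2 : d.sx.Γ f f z = bf (d.s₁ z.1) (fun i => d.sx.D i f z) (fun i => d.sx.D i f z) := rfl
  have h3 : 0 ≤ ∑ i, d.sx.D i f z ^ 2 := Finset.sum_nonneg fun _ _ => sq_nonneg _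
  rw [h2]
  have h4 := (abs_le.1 h1).2
  have h5 := mul_le_mul_of_nonneg_right hε h3
  linarith

theorem G_y (h : PkOk q d) (hε : n * q.ε ≤ 1 / 2) (f : VV n → ℝ) (z : VV n) :
    d.sy.Γ f f z ≤ 3 / 2 * ∑ i, d.sy.D i f z ^ 2 := by
  have h1 := bf_close (H737.G.s₂_close h z.2) (fun i => d.sy.D i f z)
  have h2 : d.sy.Γ f f z = bf (d.s₂ z.2) (fun i => d.sy.D i f z) (fun i => d.sy.D i f z) := rfl
  have h3 : 0 ≤ ∑ i, d.sy.D i f z ^ 2 := Finset.sum_nonneg fun _ _ => sq_nonneg _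
  rw [h2]
  have h4 := (abs_le.1 h1).2
  have h5 := mul_le_mul_of_nonneg_right hε h3
  linarith

/-- One slot: the cost of the cut-off against the margin. -/
theorem slot_le {m S Γ X F e T : ℝ} (hm : 0 ≤ m) (hS0 : 0 ≤ S) (hS : S ≤ T) (hΓ : Γ ≤ 3 / 2 * S)
    (hF : 1 / 2 * X ≤ F) (hX : 0 ≤ X) (he : 0 < e) (h1 : 30000 * (e * T) ≤ 1)
    (h2 : 1000 * T ≤ e * F) :
    34 * (32 * e * (m / (2 + m) * S)) ≤ m ∧
      34 * (3 / e * (m * Γ) + 144 * e * (m / (2 + m) * S * X)) ≤ 1 / 3 * (m * F) := by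
  have hT : 0 ≤ T := hS0.trans hS
  have hr0 : 0 ≤ m / (2 + m) := by positivity
  have hr1 : m / (2 + m) ≤ m / 2 := div_le_div_of_nonneg_left hm (by norm_num) (by linarith)
  have a1 : m / (2 + m) * S ≤ m / 2 * T := mul_le_mul hr1 hS hS0 (by positivity)
  have heT : 0 ≤ e * T := by positivity
  constructor
  · have a2 : 32 * e * (m / (2 + m) * S) ≤ 32 * e * (m / 2 * T) :=
      mul_le_mul_of_nonneg_left a1 (by positivity)
    have a3 : m * (30000 * (e * T)) ≤ m * 1 := mul_le_mul_of_nonneg_left h1 hm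
    have a4 : 0 ≤ m * (e * T) := by positivity
    nlinarith
  · have b1 : m * Γ ≤ m * (3 / 2 * T) := mul_le_mul_of_nonneg_left (by linarith) hm
    have b2 : 3 / e * (m * Γ) ≤ 3 / e * (m * (3 / 2 * T)) :=
      mul_le_mul_of_nonneg_left b1 (by positivity)
    have b3 : 3 / e * (m * (3 / 2 * T)) = m * (9 / 2 * (T / e)) := by
      field_simp
      ring
    have b4 : 1000 * (T / e) ≤ F := by
      rw [← mul_div_assoc, div_le_iff₀ he]
      linarith
    have b5 : m * (1000 * (T / e)) ≤ m * F := mul_le_mul_of_nonneg_left b4 hm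
    have c1 : m / (2 + m) * S * X ≤ m / 2 * T * (2 * F) :=
      mul_le_mul a1 (by linarith) hX (by positivity)
    have c2 : 144 * e * (m / (2 + m) * S * X) ≤ 144 * e * (m / 2 * T * (2 * F)) :=
      mul_le_mul_of_nonneg_left c1 (by positivity)
    have hF0 : 0 ≤ F := by linarith
    have c3 : m * F * (30000 * (e * T)) ≤ m * F * 1 :=
      mul_le_mul_of_nonneg_left h1 (by positivity)
    have c4 : 144 * e * (m / 2 * T * (2 * F)) = 144 * (m * F * (e * T)) := by ring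
    have c5 : 0 ≤ m * (T / e) := by positivity
    rw [b3] at b2
    rw [c4] at c2
    have c6 : 0 ≤ m * F := by positivity
    linarith

/-- **The cost `coA` against the margin `MA`** at a point. -/
theorem pay_AA (h : PkOk q d) (hε : n * q.ε ≤ 1 / 2) {m : VV n → ℝ} {χ : VV n → ℝ} {κ₀ e B X : ℝ}
    (hκ : κ₀ ≤ 1) (he : 0 < e) (hm : 0 ≤ m z)
    (hx : ∀ i, |dx i χ z| ≤ B) (hy : ∀ i, |dy i χ z| ≤ B)
    (h1 : 30000 * (e * (n * B ^ 2)) ≤ 1)
    (hX : X ≤ ∑ i, d.sx.D i (d.W q) z ^ 2) (hY : X ≤ ∑ i, d.sy.D i (d.W q) z ^ 2)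
    (h2 : 2000 * (n * B ^ 2) ≤ e * X) (a b : VV n → ℝ) :
    34 * den d q (coA d.sx d.sy (d.W q) m χ e) a b z ≤
      den d q (MA d.sx d.sy (d.W q) m κ₀) a b z := by
  have sx : ∑ i, d.sx.D i χ z ^ 2 ≤ n * B ^ 2 := by
    refine (Finset.sum_le_card_nsmul _ _ (B ^ 2) fun i _ => ?_).trans (le_of_eq ?_)
    · rw [Dx_eq, ← sq_abs]
      exact pow_le_pow_left₀ (abs_nonneg _) (hx i) 2
    · simp
  have sy : ∑ i, d.sy.D i χ z ^ 2 ≤ n * B ^ 2 := by
    refine (Finset.sum_le_card_nsmul _ _ (B ^ 2) fun i _ => ?_).trans (le_of_eq ?_)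
    · rw [Dy_eq, ← sq_abs]
      exact pow_le_pow_left₀ (abs_nonneg _) (hy i) 2
    · simp
  have sx0 : 0 ≤ ∑ i, d.sx.D i χ z ^ 2 := Finset.sum_nonneg fun _ _ => sq_nonneg _
  have sy0 : 0 ≤ ∑ i, d.sy.D i χ z ^ 2 := Finset.sum_nonneg fun _ _ => sq_nonneg _
  have wx0 : 0 ≤ ∑ i, d.sx.D i (d.W q) z ^ 2 := Finset.sum_nonneg fun _ _ => sq_nonneg _
  have wy0 : 0 ≤ ∑ i, d.sy.D i (d.W q) z ^ 2 := Finset.sum_nonneg fun _ _ => sq_nonneg _
  have Fx := H737.G.F_x h hε (d.W q) z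
  have Fy := H737.G.F_y h hε (d.W q) z
  have kx : 1000 * (n * B ^ 2) ≤ e * d.sx.F (d.W q) z := by
    have := mul_le_mul_of_nonneg_left (hX.trans (by linarith : _ ≤ 2 * d.sx.F (d.W q) z)) he.le
    linarith
  have ky : 1000 * (n * B ^ 2) ≤ e * d.sy.F (d.W q) z := by
    have := mul_le_mul_of_nonneg_left (hY.trans (by linarith : _ ≤ 2 * d.sy.F (d.W q) z)) he.le
    linarith
  obtain ⟨x1, x2⟩ := slot_le hm sx0 sx (G_x h hε χ z) Fx wx0 he h1 kx
  obtain ⟨y1, y2⟩ := slot_le hm sy0 sy (G_y h hε χ z) Fy wy0 he h1 ky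
  refine H509.PT.dens_mul_le ?_ ?_ ?_ ?_ ?_ ?_ ?_ ?_
  · show 34 * (0 : ℝ) ≤ 1 - κ₀
    linarith
  · exact x1
  · exact y1
  · show 34 * (0 : ℝ) ≤ 0
    norm_num
  · exact x2
  · exact y2
  · show 34 * (0 : ℝ) ≤ 0
    norm_num
  · show 34 * (0 : ℝ) ≤ 0
    norm_num

/-! ## The leaves -/

/-- The bound of the first derivatives of the cut-off of the leaf `k` where `tinf ≤ 0`. -/
def ChB (n : ℕ) (k : Zo) (B : Cst → ℝ) : Prop := EvC fun q => ∀ d : Pk n, PkOk q d → ∀ z,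
  d.tinf q z ≤ 0 → d.ch q k z ≠ 0 → (∀ i, |dx i (d.ch q k) z| ≤ B q) ∧
    ∀ i, |dy i (d.ch q k) z| ≤ B q

/-- The payment of the pair `k`, `j` where the cut `inf` is off. -/
def RowPayI (M co : Fam n) (k j : Zo) : Prop := EvC fun q => ∀ d : Pk n, PkOk q d →
  ∀ z, d.tinf q z ≤ 0 → d.ch q k z ≠ 0 → d.ch q j z ≠ 0 → ∀ a b : VV n → ℝ,
    34 * den d q (co q d k) a b z ≤ den d q (M q d j) a b z

/-- The leaves of zone A. -/
def LA (k : Zo) : Prop := k = .A1 ∨ k = .A2 ∨ k = .Af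

theorem Mz_A (L : Lc n) (q : Cst) (d : Pk n) {k : Zo} (hk : LA k) :
    Mz L q d k = MA d.sx d.sy (d.W q) (H747.A.mA L.μA q d) (L.kA q) := by
  rcases hk with rfl | rfl | rfl <;> rfl

theorem coz_A (L : Lc n) (e : Cst → ℝ) (q : Cst) (d : Pk n) {k : Zo} (hk : LA k) :
    coz L e q d k = coA d.sx d.sy (d.W q) (H747.A.mA L.μA q d) (d.ch q k) (e q) := by
  rcases hk with rfl | rfl | rfl <;> rfl

/-- **Pairs of leaves of zone A**: from the bounds of the cut-off. -/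
theorem payA_of {L : Lc n} (hL : L.Ok) {k j : Zo} (hk : LA k) (hj : LA j) {B : Cst → ℝ}
    (hB : NB_c' B) (hc : ChB n k B) {e : Cst → ℝ} (he : SmE e)
    (h1 : ∀ q, 30000 * (e q * (n * B q ^ 2)) ≤ 1) : RowPayI (Mz L) (coz L e) k j := by
  have c1 : EvC fun q => 0 < q.rT → 2000 * (n * B q ^ 2) ≤ e q * (q.rT / 8 * q.M₀) ^ 2 := by
    have h : EvC fun q => 0 < q.rT →
        2000 * (n * B q.b_c' ^ 2) ≤ e q.b_c' * (q.rT / 8 * q.M₀) ^ 2 :=
      EvC.at_M₀ (fun q t => 0 < q.rT →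
        2000 * (n * B q.b_c' ^ 2) ≤ e q.b_c' * (q.rT / 8 * t) ^ 2) fun q => by
        by_cases hr : 0 < q.rT
        · have h0 : 0 < e q.b_c' := he.2 _
          have ht : Tendsto (fun t : ℝ => e q.b_c' * (q.rT / 8 * t) ^ 2) atTop atTop :=
            ((tendsto_pow_atTop (by norm_num)).comp (tendsto_id.const_mul_atTop
              (by positivity : 0 < q.rT / 8))).const_mul_atTop h0
          exact (ht.eventually_ge_atTop _).mono fun _ h2 _ => h2
        · exact Eventually.of_forall fun _ h2 => absurd h2 hr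
    refine h.mono fun q hq h0 => ?_
    have := hq h0
    rwa [hB q, he.1 q] at this
  have hS := H912.A.rowSup n
  have hS' : EvC fun q => ∀ d : Pk n, PkOk q d → tsupport (d.ch q j) ⊆ H747.A.OmA q d := by
    have hj' : j ∈ ({.A1, .A2, .Af} : Set Zo) := by
      rcases hj with rfl | rfl | rfl <;> simp
    exact (hS j hj').mono fun q hq d h => (hq d h).2
  refine (((hc.and c1).and (hS'.and (H737.G.ev_ε n))).and EvC.pos).mono ?_
  rintro q ⟨⟨⟨a1, a2⟩, a3, a4⟩, ⟨-, -, -, -, -, -, -, rT, -⟩, ⟨-, s0, -⟩, M1, -, -, -, -, R1⟩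
    d h z ht hz hz' a b
  obtain ⟨b1, b2⟩ := a1 d h z ht hz
  obtain ⟨o1, o2, o3⟩ := a3 d h (subset_tsupport _ hz')
  have hr2 : 0 < d.r2 z := lt_of_le_of_lt (sq_nonneg _) o1.1
  have hG := H737.G.GG_pos h hr2
  have hN : q.M₀ ≤ d.N q z := h.N_ge _
  have hNG : q.M₀ ≤ H747.A.NG q d z := by
    show q.M₀ ≤ d.N q z + H747.A.GG q d z
    linarith
  have hX : (q.rT / 8 * q.M₀) ^ 2 ≤ (q.rT / 8 * H747.A.NG q d z) ^ 2 := by
    refine pow_le_pow_left₀ (by positivity) ?_ 2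
    exact mul_le_mul_of_nonneg_left hNG (by positivity)
  have hm : 0 ≤ H747.A.mA L.μA q d z := by
    have h5 : 0 ≤ L.μA q * (H747.A.GG q d z / H747.A.rr d z) :=
      mul_nonneg (hL.μA.1 q).le (div_nonneg hG.le (Real.sqrt_nonneg _))
    have h6 : 0 ≤ q.σ / (400 * q.R) * H747.A.NG q d z := by
      have : 0 ≤ H747.A.NG q d z := by linarith
      positivity
    unfold H747.A.mA
    linarith
  rw [Mz_A L q d hj, coz_A L e q d hk]
  exact pay_AA h a4 (by linarith [(hL.kA.1 q).2]) (he.2 q) hm b1 b2 (h1 q) (hX.trans o2.le)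
    (hX.trans o3.le) (a2 rT) a b

/-- The cut-offs of `A1`, `A2`. -/
theorem chB_A (hn : 1 ≤ n) : ∃ B : Cst → ℝ, NB_c' B ∧ (∀ q, 0 ≤ B q) ∧
    ∀ k, (k = .A1 ∨ k = .A2) → ChB n k B := by
  obtain ⟨B, hB, hB0, hc⟩ := H710.DC.chA hn
  obtain ⟨C, -, -, hu⟩ := H808.A.rowSym n (fun _ => 1) (fun _ => rfl) fun _ => one_pos
  refine ⟨B, hB, hB0, fun k hk => ?_⟩
  have hk' : k ∈ ({.A1, .A2, .Af} : Set Zo) := by
    rcases hk with rfl | rfl <;> simp
  refine ((hc.and hu).and (H912.A.rowSup n k hk')).mono ?_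
  rintro q ⟨⟨h1, h2⟩, h3⟩ d h z ht hz
  have o := ((h3 d h).2 (subset_tsupport _ hz)).1
  have hD := (h2 d h z o).1
  constructor
  · intro i
    refine h1 d h z ht k hk hz _ ?_ ?_
    · rw [Prod.norm_mk, norm_zero, max_eq_left (norm_nonneg _)]
      refine (pi_norm_le_iff_of_nonneg zero_le_one).2 fun j => ?_
      by_cases hj : j = i
      · subst hj
        simp
      · simp [Pi.single_eq_of_ne hj]
    · have := hD.x i
      rwa [Dx_eq] at this
  · intro i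
    refine h1 d h z ht k hk hz _ ?_ ?_
    · rw [Prod.norm_mk, norm_zero, max_eq_right (norm_nonneg _)]
      refine (pi_norm_le_iff_of_nonneg zero_le_one).2 fun j => ?_
      by_cases hj : j = i
      · subst hj
        simp
      · simp [Pi.single_eq_of_ne hj]
    · have := hD.y i
      rwa [Dy_eq] at this

/-- **The pairs `{A1, A2} x {A1, A2}`** (and `{A1, A2} x {Af}`), for all sufficiently small `e`. -/
theorem payA_all (hn : 1 ≤ n) : ∃ th : Cst → ℝ, SmE th ∧ ∀ {L : Lc n}, L.Ok → ∀ e : Cst → ℝ,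
    SmE e → (∀ q, e q ≤ th q) → ∀ {k j : Zo}, (k = .A1 ∨ k = .A2) → LA j →
      RowPayI (Mz L) (coz L e) k j := by
  obtain ⟨B, hB, hB0, hc⟩ := chB_A hn
  refine ⟨fun q => 1 / (30000 * (n * B q ^ 2) + 1), ⟨fun q => by simp only [hB q], fun q => by
    positivity⟩, fun {L} hL e he het {k j} hk hj => ?_⟩
  refine payA_of hL ?_ hj hB (hc k hk) he fun q => ?_
  · rcases hk with rfl | rfl
    · exact Or.inl rfl
    · exact Or.inr (Or.inl rfl)
  · have h1 := het q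
    rw [le_div_iff₀ (by positivity)] at h1
    have h2 := he.2 q
    linarith

end Vale.Agent.P088.R2.H552.E
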