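import Vale.Agent.P088.R2.H552.E.DeadB

/-!
# P088, stage 3, EST': the dead pairs of the payment table

`dead_all`: for `dd k j = true` the cut-offs of the zones `k`, `j` are nowhere both nonzero.
`deadF_all`: where `tinf ≤ 0` moreover the leaves at infinity are dead.
-/

open Set Filter
open scoped ContDiff Topology

noncomputable section

namespace Vale.Agent.P088.R2.H552.E

open Vale.Agent.P088.LR Vale.Agent.P088.R2.H31.EP
open Vale.Agent.P088.HY hiding rr
open Vale.Agent.P088.R2.H710.GP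
open Vale.Agent.P088.R2.H404.INF
open Vale.Agent.P088.R2.H867.EP

variable {n : ℕ}

/-- The blocks of dead pairs. -/
def blocks : List (List Zo × List Zo) := [
  ([.z0, .zI, .z2a, .zB, .z2b], [.P1, .P2, .A2, .Af]),
  ([.RSf], [.z0, .zI, .z2a, .zB, .z2b]),
  ([.RSf], [.T1, .T2, .A1, .P1, .P2, .A2]),
  ([.RSn, .RSf], [.zI, .z2a, .zB, .z2b]),
  ([.RSn, .RSf], [.T1, .T2, .P1, .P2]),
  ([.T1, .T2, .A1], [.Af]),
  ([.P1, .P2], [.Af]),
  ([.T1], [.P2, .A2]),
  ([.T2], [.A2]),
  ([.T1, .P1], [.T2, .P2]),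
  ([.z0], [.zB, .z2b]),
  ([.zB], [.T1, .T2, .A1]),
  ([.z0, .z2a, .z2b], [.T1, .T2])]

/-- The dead pairs (one order). -/
def d1 (k j : Zo) : Bool := blocks.any fun g => g.1.contains k && g.2.contains j

/-- The dead pairs. -/
def dd (k j : Zo) : Bool := d1 k j || d1 j k

/-- The zones at infinity. -/
def ii : Zo → Bool
  | .iH | .iF | .iS => true
  | _ => false

/-- The dead pairs where `tinf ≤ 0`. -/
def ddF (k j : Zo) : Bool := dd k j || ii k || ii j

theorem dd_symm (k j : Zo) : dd k j = dd j k := Bool.or_comm _ _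

theorem d1_dead {q : Cst} (hq : DB n q) {d : Pk n} (h : PkOk q d) {z : VV n} {k j : Zo}
    (hkj : d1 k j = true) (h1 : d.ch q k z ≠ 0) (h2 : d.ch q j z ≠ 0) : False := by
  simp only [d1, blocks, List.any_cons, List.any_nil, Bool.or_false, Bool.or_eq_true,
    Bool.and_eq_true, List.contains_iff_mem, List.mem_cons, List.not_mem_nil, or_false] at hkj
  rcases hkj with g | g | g | g | g | g | g | g | g | g | g | g | g
  · exact near_P hq.toDC h g.1 g.2 h1 h2
  · obtain ⟨rfl, g⟩ := g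
    exact RSf_near hq.toDC h g h1 h2
  · obtain ⟨rfl, g⟩ := g
    refine RSf_off hq.toDC h ?_ ?_ h1 h2
    · unfold Off
      tauto
    · rintro rfl
      exact absurd g (by decide)
  · obtain ⟨g, g'⟩ := g
    refine RS_near hq.toDC h g (Or.inr g') ?_ h1 h2
    rintro rfl
    exact absurd g' (by decide)
  · exact RS_TP hq h g.1 g.2 h1 h2
  · obtain ⟨g, rfl⟩ := g
    exact T_Af hq.toDC h g h1 h2
  · obtain ⟨g, rfl⟩ := g
    exact P_Af hq.toDC h g h1 h2
  · obtain ⟨rfl, g⟩ := g
    exact T1_A2 hq.toDC h g h1 h2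
  · obtain ⟨rfl, rfl⟩ := g
    exact T2_A2 hq.toDC h h1 h2
  · exact xy_dead hq.toDC h g.1 g.2 h1 h2
  · obtain ⟨rfl, g⟩ := g
    exact z0_B hq h g h1 h2
  · obtain ⟨rfl, g⟩ := g
    refine zB_off hq h ?_ h1 h2
    unfold Off
    tauto
  · exact near_T hq h g.1 g.2 h1 h2

/-- **The dead pairs**, for one choice of the constants. -/
theorem dd_dead {q : Cst} (hq : DB n q) {d : Pk n} (h : PkOk q d) {z : VV n} {k j : Zo}
    (hkj : dd k j = true) (h1 : d.ch q k z ≠ 0) (h2 : d.ch q j z ≠ 0) : False := by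
  unfold dd at hkj
  rw [Bool.or_eq_true] at hkj
  rcases hkj with hkj | hkj
  · exact d1_dead hq h hkj h1 h2
  · exact d1_dead hq h hkj h2 h1

/-- **The dead pairs.** -/
theorem dead_all (n : ℕ) {k j : Zo} (hkj : dd k j = true) : DeadP n k j :=
  (evB n).mono fun _ hq _ h _ h1 h2 => dd_dead hq h hkj h1 h2

theorem ii_dead {q : Cst} {d : Pk n} {z : VV n} {k : Zo} (hk : ii k = true)
    (h0 : d.tinf q z ≤ 0) (h1 : d.ch q k z ≠ 0) : False := by
  have hk' : Inf k := by
    cases k <;> first | exact absurd hk (by decide) | (unfold Inf; decide)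
  have h2 : 0 < d.tinf q z := H867.EP.alive_inf Fl_pair h1 hk'
  linarith

/-- **The dead pairs where `tinf ≤ 0`.** -/
theorem deadF_all (n : ℕ) {k j : Zo} (hkj : ddF k j = true) : DeadF n k j := by
  unfold ddF at hkj
  rw [Bool.or_eq_true, Bool.or_eq_true] at hkj
  refine (evB n).mono fun q hq d h z h0 h1 h2 => ?_
  rcases hkj with (hkj | hkj) | hkj
  · exact dd_dead hq h hkj h1 h2
  · exact ii_dead hkj h0 h1
  · exact ii_dead hkj h0 h2

end Vale.Agent.P088.R2.H552.E
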