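import Vale.Agent.P088.R2.H552.E.Tb3

/-!
# P088, stage 3, EST': the dead pairs of the payment table, part 1

The pairs which are dead by the radii and by the gradients of the flat weight.
-/

open Set Filter
open scoped ContDiff Topology

noncomputable section

namespace Vale.Agent.P088.R2.H552.E

open Vale.Agent.P088.LR Vale.Agent.P088.R2.H31.EP
open Vale.Agent.P088.HY hiding rr
open Vale.Agent.P088.R2.H710.GP
open Vale.Agent.P088.R2.H404.INF
open Vale.Agent.P088.R2.H867.EP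

variable {n : ℕ}

/-- The conditions on the constants. -/
structure DC (n : ℕ) (q : Cst) : Prop extends GC3 q where
  aC0 : 0 < q.aC
  aC1 : q.aC ≤ 1 / 2
  c₀1 : q.c₀ ≤ 1 / 100
  nm1 : 1 ≤ q.nm
  cp : ∀ d : Pk n, PkOk q d → (d.cp q).Ok
  met : ∀ d : Pk n, PkOk q d → ∀ z : VV n,
    99 / 100 * rr z ^ 2 ≤ d.r2 z ∧ d.r2 z ≤ 101 / 100 * rr z ^ 2
  /-- `ρ ≥ 0` -/
  rq : ∀ d : Pk n, PkOk q d → ∀ z : VV n, 0 ≤ H464.Cu.rq (gi d.s₁) z

theorem evD (n : ℕ) : EvC (DC n) := by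
  have c1 : EvC fun q => q.aC ≤ 1 / 2 :=
    EvC.at_aC (fun _ t => t ≤ 1 / 2) fun _ => sml_le (by norm_num)
  have c2 : EvC fun q => q.c₀ ≤ 1 / 100 :=
    EvC.at_c₀ (fun _ t => t ≤ 1 / 100) fun _ => sml_le (by norm_num)
  refine (((ev3.and EvC.pos).and (c1.and c2)).and (((EvC.cpOk n).and (ev_met n)).and
    (EvC.rq n))).mono ?_
  rintro q ⟨⟨⟨a1, ⟨-, -, nm, -, aC, -⟩, -⟩, b1, b2⟩, ⟨b3, b4⟩, b5⟩
  exact { toGC3 := a1, aC0 := aC, aC1 := b1, c₀1 := b2, nm1 := nm, cp := b3, met := b4,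
          rq := fun d h z => ((b5 d h).2 z).1 }

/-- The pair `(k, j)` is dead. -/
def DeadP (n : ℕ) (k j : Zo) : Prop :=
  EvC fun q => ∀ d : Pk n, PkOk q d → ∀ z : VV n, d.ch q k z ≠ 0 → d.ch q j z ≠ 0 → False

/-- The pair `(k, j)` is dead where `tinf ≤ 0`. -/
def DeadF (n : ℕ) (k j : Zo) : Prop :=
  EvC fun q => ∀ d : Pk n, PkOk q d → ∀ z : VV n, d.tinf q z ≤ 0 → d.ch q k z ≠ 0 →
    d.ch q j z ≠ 0 → False

theorem DeadP.symm {k j : Zo} (h : DeadP n k j) : DeadP n j k :=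
  h.mono fun _ hq d hd z h1 h2 => hq d hd z h2 h1

theorem DeadF.symm {k j : Zo} (h : DeadF n k j) : DeadF n j k :=
  h.mono fun _ hq d hd z h0 h1 h2 => hq d hd z h0 h2 h1

theorem DeadP.f {k j : Zo} (h : DeadP n k j) : DeadF n k j :=
  h.mono fun _ hq d hd z _ h1 h2 => hq d hd z h1 h2

variable {q : Cst} {d : Pk n} {z : VV n} {k j : Zo}

theorem no_of (hq : DC n q) (h : PkOk q d) (hk : sd k .inf = false) (hz : d.ch q k z ≠ 0) :
    NO q d z := near_supp hq.inf h hk (subset_tsupport _ hz)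

/-! ## Radii -/

theorem near_P (hq : DC n q) (h : PkOk q d) (hk : Near k)
    (hj : j = .P1 ∨ j = .P2 ∨ j = .A2 ∨ j = .Af) (h1 : d.ch q k z ≠ 0) (h2 : d.ch q j z ≠ 0) :
    False := by
  have hp := Cst.p₁_ge hq.rad
  have a1 := sd_r h1 hk (hq.cp d h)
  have hc := hq.c₀1
  have hc0 := hq.c₀0
  have a2 : q.p₁ ^ 2 ≤ d.r2 z := by
    by_cases hj2 : j = .Af
    · subst hj2
      have := sd_Af h2 (hq.cp d h)
      nlinarith
    · refine sd_P h2 ?_ (hq.cp d h)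
      rcases hj with hj | hj | hj | hj
      exacts [Or.inl hj, Or.inr (Or.inl hj), Or.inr (Or.inr hj), absurd hj hj2]
  nlinarith

theorem RSf_near (hq : DC n q) (h : PkOk q d) (hj : Near j) (h1 : d.ch q .RSf z ≠ 0)
    (h2 : d.ch q j z ≠ 0) : False := by
  have hp := Cst.p₁_ge hq.rad
  have hR := Cst.two_p₁_lt hq.rad
  have a1 := sd_r h2 hj (hq.cp d h)
  have a2 := sd_RSf h1 (hq.cp d h)
  have hc := hq.c₀1
  have hc0 := hq.c₀0
  nlinarith

theorem RSf_off (hq : DC n q) (h : PkOk q d) (hj : Off j) (hj0 : j ≠ .Af)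
    (h1 : d.ch q .RSf z ≠ 0) (h2 : d.ch q j z ≠ 0) : False := by
  have hp := Cst.p₁_ge hq.rad
  have hR := Cst.two_p₁_lt hq.rad
  have a1 := sd_nf h2 hj hj0 (hq.cp d h)
  have a2 := sd_RSf h1 (hq.cp d h)
  nlinarith

theorem T_Af (hq : DC n q) (h : PkOk q d) (hk : k = .T1 ∨ k = .T2 ∨ k = .A1)
    (h1 : d.ch q k z ≠ 0) (h2 : d.ch q .Af z ≠ 0) : False := by
  have hp := Cst.p₁_ge hq.rad
  have hp1 := Cst.p₁_lt hq.rad
  have hp2 := Cst.p₂_lt hq.rad
  have a1 := sd_T h1 hk (hq.cp d h)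
  have a2 := sd_Af h2 (hq.cp d h)
  nlinarith

/-! ## The slope -/

theorem RS_near (hq : DC n q) (h : PkOk q d) (hk : RS k) (hj : Near j) (hj0 : j ≠ .z0)
    (h1 : d.ch q k z ≠ 0) (h2 : d.ch q j z ≠ 0) : False := by
  have hN : 0 < d.N q z := h.N_pos hq.M1 _
  have hE : 0 < d.E q z := Real.exp_pos _
  have a1 := (sd_RS h1 hk (by linarith [hq.nm1]) hN).1
  have a2 := sd_e0 h2 hj hj0 (hq.cp d h) hq.aC0 hN
  have hc := hq.aC1
  have hn := hq.nm1
  nlinarith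

/-! ## The gradients -/

theorem nx_of (hq : DC n q) (h : PkOk q d) {t : ℝ} (ht : 0 ≤ t)
    (hx : ∑ i, dx i (d.W0 q) z ^ 2 < (t * d.NG q z) ^ 2) : en (gx d q z) ≤ t * d.NG q z := by
  rw [sq_gx] at hx
  exact (lt_of_pow_lt_pow_left₀ 2 (mul_nonneg ht (NG_pos hq.toGC h z).le) hx).le

theorem ny_of (hq : DC n q) (h : PkOk q d) {t : ℝ} (ht : 0 ≤ t)
    (hx : ∑ i, dy i (d.W0 q) z ^ 2 < (t * d.NG q z) ^ 2) : en (gy d q z) ≤ t * d.NG q z := by
  rw [sq_gy] at hx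
  exact (lt_of_pow_lt_pow_left₀ 2 (mul_nonneg ht (NG_pos hq.toGC h z).le) hx).le

/-- The radius on the off-diagonal leaves. -/
theorem rr_off (hq : DC n q) (h : PkOk q d) (hk : Off k) (h1 : d.ch q k z ≠ 0) : 0 < rr z := by
  have hc0 := hq.c₀0
  have a1 := sd_off h1 hk (hq.cp d h)
  have a2 := (hq.met d h z).2
  have a3 := rr_nn z
  rcases a3.lt_or_eq with h3 | h3
  · exact h3
  · rw [← h3] at a2
    nlinarith

theorem rr_nf (hq : DC n q) (h : PkOk q d) (hk : Off k) (hk0 : k ≠ .Af) (h1 : d.ch q k z ≠ 0) :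
    rr z ≤ 3 * q.p₁ := by
  have hp := Cst.p₁_ge hq.rad
  have a1 := sd_nf h1 hk hk0 (hq.cp d h)
  have a2 := (hq.met d h z).1
  have a3 := rr_nn z
  by_contra hc
  rw [not_le] at hc
  nlinarith

theorem rr_T (hq : DC n q) (h : PkOk q d) (hk : k = .T1 ∨ k = .T2 ∨ k = .A1)
    (h1 : d.ch q k z ≠ 0) : rr z ≤ 2 * q.p₁ := by
  have hp := Cst.p₁_ge hq.rad
  have hp1 := Cst.p₁_lt hq.rad
  have hp2 := Cst.p₂_lt hq.rad
  have a1 := sd_T h1 hk (hq.cp d h)
  have a2 := (hq.met d h z).1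
  have a3 := rr_nn z
  by_contra hc
  rw [not_le] at hc
  nlinarith

/-- Facts where `T1` or `P1` is alive. -/
theorem tb_of_x (hq : DC n q) (h : PkOk q d) (hk : k = .T1 ∨ k = .P1) (h1 : d.ch q k z ≠ 0) :
    0 < rr z ∧ rr z < 7 / 5 * q.p₁ ∧ en (gx d q z) ≤ 4 * q.rT * d.NG q z ∧
      Tb q d z (4 * q.rT) := by
  have hNG := NG_pos hq.toGC h z
  have hT := hq.rT0
  have hT1 := hq.rT1
  have hoff : Off k := by
    rcases hk with rfl | rfl <;> unfold Off <;> decide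
  have hAf : k ≠ .Af := by rcases hk with rfl | rfl <;> decide
  have hin : sd k .inf = false := by rcases hk with rfl | rfl <;> decide
  have hx : en (gx d q z) ≤ 4 * q.rT * d.NG q z := by
    rcases hk with rfl | rfl
    · refine (nx_of hq h hT.le (sd_T1 hT hNG h1)).trans ?_
      have : 0 ≤ q.rT * d.NG q z := by positivity
      linarith
    · exact nx_of hq h (by positivity) (sd_P1 hT hNG h1)
  have h0 := rr_off hq h hoff h1
  have hb := tb_x3 hq.toGC3 h (no_of hq h hin h1) h0 (rr_nf hq h hoff hAf h1) (by linarith) hx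
  exact ⟨h0, lt_far3 hq.toGC h hb le_rfl, hx, hb⟩

/-- Facts where `T2` or `P2` is alive. -/
theorem tb_of_y (hq : DC n q) (h : PkOk q d) (hk : k = .T2 ∨ k = .P2) (h1 : d.ch q k z ≠ 0) :
    0 < rr z ∧ rr z < 7 / 5 * q.p₁ ∧ en (gy d q z) ≤ 4 * q.rT * d.NG q z ∧
      Tb q d z (4 * q.rT) := by
  have hNG := NG_pos hq.toGC h z
  have hT := hq.rT0
  have hT1 := hq.rT1
  have hoff : Off k := by
    rcases hk with rfl | rfl <;> unfold Off <;> decide
  have hAf : k ≠ .Af := by rcases hk with rfl | rfl <;> decide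
  have hin : sd k .inf = false := by rcases hk with rfl | rfl <;> decide
  have hx : en (gy d q z) ≤ 4 * q.rT * d.NG q z := by
    rcases hk with rfl | rfl
    · refine (ny_of hq h hT.le (sd_T2 hT hNG h1)).trans ?_
      have : 0 ≤ q.rT * d.NG q z := by positivity
      linarith
    · exact ny_of hq h (by positivity) (sd_P2 hT hNG h1)
  have h0 := rr_off hq h hoff h1
  have hb := tb_y3 hq.toGC3 h (no_of hq h hin h1) h0 (rr_nf hq h hoff hAf h1) (by linarith) hx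
  exact ⟨h0, lt_far3 hq.toGC h hb le_rfl, hx, hb⟩

/-- The two gradients are not both short. -/
theorem xy_dead (hq : DC n q) (h : PkOk q d) (hk : k = .T1 ∨ k = .P1) (hj : j = .T2 ∨ j = .P2)
    (h1 : d.ch q k z ≠ 0) (h2 : d.ch q j z ≠ 0) : False := by
  have hNG := NG_pos hq.toGC h z
  have hp := Cst.p₁_ge hq.rad
  have hT1 := hq.rT1
  have hin : sd k .inf = false := by rcases hk with rfl | rfl <;> decide
  obtain ⟨a0, a1, a2, -⟩ := tb_of_x hq h hk h1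
  obtain ⟨-, -, b2, -⟩ := tb_of_y hq h hj h2
  have c := oth_x hq.toGC h (no_of hq h hin h1) a0 (by linarith) (by linarith) a2
  nlinarith

/-- `P1`, `P2` and the far zone. -/
theorem P_Af (hq : DC n q) (h : PkOk q d) (hk : k = .P1 ∨ k = .P2)
    (h1 : d.ch q k z ≠ 0) (h2 : d.ch q .Af z ≠ 0) : False := by
  have hp := Cst.p₁_ge hq.rad
  have a1 : 0 < rr z ∧ rr z < 7 / 5 * q.p₁ := by
    rcases hk with rfl | rfl
    · obtain ⟨a0, a1, -⟩ := tb_of_x hq h (Or.inr rfl) h1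
      exact ⟨a0, a1⟩
    · obtain ⟨a0, a1, -⟩ := tb_of_y hq h (Or.inr rfl) h1
      exact ⟨a0, a1⟩
  have a2 := sd_Af h2 (hq.cp d h)
  have a3 := (hq.met d h z).2
  have a4 : rr z ^ 2 < (7 / 5 * q.p₁) ^ 2 := pow_lt_pow_left₀ a1.2 a1.1.le (by norm_num)
  nlinarith

/-- `|W0_x| < rT NG` against `|W0_x| > 2 rT NG`. -/
theorem T1_A2 (hq : DC n q) (h : PkOk q d) (hj : j = .P2 ∨ j = .A2)
    (h1 : d.ch q .T1 z ≠ 0) (h2 : d.ch q j z ≠ 0) : False := by
  have hNG := NG_pos hq.toGC h z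
  have hT := hq.rT0
  have a1 := sd_T1 hT hNG h1
  have a2 := sd_nP1 hT hNG h2 hj
  have a3 : 0 < (q.rT * d.NG q z) ^ 2 := by positivity
  have e : (2 * q.rT * d.NG q z) ^ 2 = 4 * (q.rT * d.NG q z) ^ 2 := by ring
  linarith

theorem T2_A2 (hq : DC n q) (h : PkOk q d)
    (h1 : d.ch q .T2 z ≠ 0) (h2 : d.ch q .A2 z ≠ 0) : False := by
  have hNG := NG_pos hq.toGC h z
  have hT := hq.rT0
  have a1 := sd_T2 hT hNG h1
  have a2 := sd_A2 hT hNG h2
  have a3 : 0 < (q.rT * d.NG q z) ^ 2 := by positivity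
  have e : (2 * q.rT * d.NG q z) ^ 2 = 4 * (q.rT * d.NG q z) ^ 2 := by ring
  linarith

end Vale.Agent.P088.R2.H552.E
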