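import Vale.Agent.P088.R2.H552.E.DeadA
import Vale.Agent.P088.R2.H509.EP.Win
import Vale.Agent.P088.R2.H871.E.Lay

/-!
# P088, stage 3, EST': the dead pairs of the payment table, part 2

The pairs which are dead by the slope: `z0 | zB, z2b`, `zB | T1, T2, A1`, `RS | T1, T2, P1, P2`,
`z0, z2a, z2b | T1, T2`.
-/

open Set Filter
open scoped ContDiff Topology

noncomputable section

namespace Vale.Agent.P088.R2.H552.E

open Vale.Agent.P088.LR Vale.Agent.P088.R2.H31.EP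
open Vale.Agent.P088.HY hiding rr
open Vale.Agent.P088.R2.H710.GP
open Vale.Agent.P088.R2.H404.INF
open Vale.Agent.P088.R2.H867.EP
open Vale.Agent.P088.R2.H871.E (u_u0)

variable {n : ℕ}

/-- The conditions on the constants. -/
structure DB (n : ℕ) (q : Cst) : Prop extends DC n q where
  wc : WC q
  cK0 : 0 < q.cK
  k1 : 100 * q.c₀ ≤ q.aC
  k2 : 100 * q.c₀ ≤ q.cK
  k3 : 100 * q.ν₁ ≤ q.c₀
  k4 : Real.log 2 - Real.log q.aC < 8 / 5 * Real.log q.M₀
  k5 : -Real.log (q.c₀ / 10) < 8 / 5 * Real.log q.M₀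
  k6 : 2 * q.Λ < q.c₀ ^ 2 * Real.exp (74 / 100 * Real.log q.M₀)
  c0 : 0 ≤ q.σ / (q.CB * q.R)

theorem evB (n : ℕ) : EvC (DB n) := by
  have c1 : EvC fun q => 0 < q.aC → 100 * q.c₀ ≤ q.aC :=
    EvC.at_c₀ (fun q t => 0 < q.aC → 100 * t ≤ q.aC) fun q => by
      by_cases h : 0 < q.aC
      · exact (sml_le (a := q.aC / 100) (by positivity)).mono fun t h1 _ => by linarith
      · exact Eventually.of_forall fun _ h1 => absurd h1 h
  have c2 : EvC fun q => 0 < q.cK → 100 * q.c₀ ≤ q.cK :=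
    EvC.at_c₀ (fun q t => 0 < q.cK → 100 * t ≤ q.cK) fun q => by
      by_cases h : 0 < q.cK
      · exact (sml_le (a := q.cK / 100) (by positivity)).mono fun t h1 _ => by linarith
      · exact Eventually.of_forall fun _ h1 => absurd h1 h
  have c3 : EvC fun q => 0 < q.c₀ → 100 * q.ν₁ ≤ q.c₀ :=
    EvC.at_ν₁ (fun q t => 0 < q.c₀ → 100 * t ≤ q.c₀) fun q => by
      by_cases h : 0 < q.c₀
      · exact (sml_le (a := q.c₀ / 100) (by positivity)).mono fun t h1 _ => by linarith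
      · exact Eventually.of_forall fun _ h1 => absurd h1 h
  have hl : Tendsto (fun t : ℝ => 8 / 5 * Real.log t) atTop atTop :=
    Real.tendsto_log_atTop.const_mul_atTop (by norm_num)
  have c4 : EvC fun q => Real.log 2 - Real.log q.aC < 8 / 5 * Real.log q.M₀ :=
    EvC.at_M₀ (fun q t => Real.log 2 - Real.log q.aC < 8 / 5 * Real.log t) fun q =>
      hl.eventually_gt_atTop _
  have c5 : EvC fun q => -Real.log (q.c₀ / 10) < 8 / 5 * Real.log q.M₀ :=
    EvC.at_M₀ (fun q t => -Real.log (q.c₀ / 10) < 8 / 5 * Real.log t) fun q =>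
      hl.eventually_gt_atTop _
  have c6 : EvC fun q => 0 < q.c₀ →
      2 * q.Λ < q.c₀ ^ 2 * Real.exp (74 / 100 * Real.log q.M₀) :=
    EvC.at_M₀ (fun q t => 0 < q.c₀ → 2 * q.Λ < q.c₀ ^ 2 * Real.exp (74 / 100 * Real.log t))
      fun q => by
      by_cases h : 0 < q.c₀
      · have h1 : Tendsto (fun t : ℝ => q.c₀ ^ 2 * Real.exp (74 / 100 * Real.log t)) atTop atTop :=
          (Real.tendsto_exp_atTop.comp
            (Real.tendsto_log_atTop.const_mul_atTop (by norm_num))).const_mul_atTop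
            (by positivity)
        exact (h1.eventually_gt_atTop _).mono fun _ h2 _ => h2
      · exact Eventually.of_forall fun _ h1 => absurd h1 h
  refine ((((evD n).and EvC.wc).and (EvC.pos.and c1)).and ((c2.and c3).and
    ((c4.and c5).and c6))).mono ?_
  rintro q ⟨⟨⟨a1, a2⟩, ⟨⟨-, -, -, cK, aC, c0, -, -, -, cb⟩, ⟨-, s0, -⟩, -, -, -, -, -, R1⟩, b1⟩,
    ⟨b2, b3⟩, ⟨b4, b5⟩, b6⟩
  exact { toDC := a1, wc := a2, cK0 := cK, k1 := b1 aC, k2 := b2 cK, k3 := b3 c0, k4 := b4,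
          k5 := b5, k6 := b6 c0, c0 := by positivity }

variable {q : Cst} {d : Pk n} {z : VV n} {k j : Zo} {t : ℝ}

/-- `log M₀ ≤ log N`. -/
theorem log_N (hq : DB n q) (h : PkOk q d) (u : ℝ) : Real.log q.M₀ ≤ Real.log (deriv d.Φ u) :=
  Real.log_le_log (by linarith [hq.M1]) (h.N_ge u)

/-- `13/5 log N ≤ u` in zone B. -/
theorem zB_log (hq : DB n q) (h : PkOk q d) (hk : k = .zB ∨ k = .z2b) (h1 : d.ch q k z ≠ 0) :
    13 / 5 * Real.log (d.N q z) ≤ d.u q z := by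
  have hN : 0 < d.N q z := h.N_pos hq.M1 _
  have a1 := sd_B h1 hk (hq.cp d h) hN
  have a2 := Real.log_le_log (Real.rpow_pos_of_pos hN _) a1
  rw [Real.log_rpow hN] at a2
  unfold Pk.E at a2
  rwa [Real.log_exp] at a2

/-! ## `z0` and zone B -/

theorem z0_B (hq : DB n q) (h : PkOk q d) (hj : j = .zB ∨ j = .z2b) (h1 : d.ch q .z0 z ≠ 0)
    (h2 : d.ch q j z ≠ 0) : False := by
  have hN : 0 < d.N q z := h.N_pos hq.M1 _
  have a1 := sd_z0 h1 (hq.cp d h) hq.aC0 hN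
  have a2 := zB_log hq h hj h2
  have a3 := Real.log_le_log (mul_pos hq.aC0 (Real.exp_pos _)) a1
  unfold Pk.E at a3
  rw [Real.log_mul hq.aC0.ne' (Real.exp_pos _).ne', Real.log_exp,
    Real.log_mul (by norm_num) hN.ne'] at a3
  have a4 := log_N hq h (d.u q z)
  have e : Real.log (d.N q z) = Real.log (deriv d.Φ (d.u q z)) := rfl
  have a5 := hq.k4
  rw [← e] at a4
  linarith

/-! ## `zB` and the tubes -/

theorem zB_off (hq : DB n q) (h : PkOk q d) (hj : Off j) (h1 : d.ch q .zB z ≠ 0)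
    (h2 : d.ch q j z ≠ 0) : False := by
  have hc0 := hq.c₀0
  have a1 := sd_off h2 hj (hq.cp d h)
  have a2 := sd_zB h1 (hq.cp d h) (hq.rq d h z)
  have a3 := zB_log hq h (Or.inl rfl) h1
  have a4 := log_N hq h (d.u q z)
  have e : Real.log (d.N q z) = Real.log (deriv d.Φ (d.u q z)) := rfl
  rw [← e] at a4
  have hM : 0 ≤ Real.log q.M₀ := Real.log_nonneg hq.M1
  have a5 : Real.log q.M₀ ≤ d.u q z := by linarith
  have a6 : d.m₁ q (d.u q z) ≤ Real.exp (26 / 100 * d.u q z) :=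
    H932.EP.m1x_le hq.c0 (d.ξ_is q) _
  have hΛ : 0 < q.Λ := Real.exp_pos _
  have a7 : q.c₀ ^ 2 * Real.exp (d.u q z) ≤ 2 * q.Λ * Real.exp (26 / 100 * d.u q z) := by
    have b1 : q.c₀ ^ 2 * Real.exp (d.u q z) ≤ d.m q z := by
      unfold Pk.m Pk.E
      rw [mul_comm]
      exact mul_le_mul_of_nonneg_left a1 (Real.exp_pos _).le
    refine b1.trans (a2.trans ?_)
    exact mul_le_mul_of_nonneg_left a6 (by positivity)
  have a8 : q.c₀ ^ 2 * Real.exp (74 / 100 * d.u q z) ≤ 2 * q.Λ := by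
    have b1 : Real.exp (d.u q z) = Real.exp (74 / 100 * d.u q z) * Real.exp (26 / 100 * d.u q z) := by
      rw [← Real.exp_add]
      ring_nf
    rw [b1, ← mul_assoc] at a7
    exact le_of_mul_le_mul_right a7 (Real.exp_pos _)
  have a9 : Real.exp (74 / 100 * Real.log q.M₀) ≤ Real.exp (74 / 100 * d.u q z) :=
    Real.exp_le_exp.2 (by linarith)
  have a10 := hq.k6
  have a11 := mul_le_mul_of_nonneg_left a9 (sq_nonneg q.c₀)
  linarith

/-! ## The reverse pass against the tubes -/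

theorem exp_q : Real.exp (1 / 4) ≤ 13 / 10 ∧ Real.exp (1 / 2) ≤ 17 / 10 := by
  constructor
  · have h := Real.exp_bound' (x := 1 / 4) (by norm_num) (by norm_num) (n := 4) (by norm_num)
    norm_num [Finset.sum_range_succ, Nat.factorial] at h
    linarith
  · have h := Real.exp_bound' (x := 1 / 2) (by norm_num) (by norm_num) (n := 4) (by norm_num)
    norm_num [Finset.sum_range_succ, Nat.factorial] at h
    linarith

theorem RS_tb (hq : DB n q) (h : PkOk q d) (hk : RS k) (hn : NO q d z) (hT : Tb q d z t)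
    (ht : t ≤ 1 / 20) (h0 : 0 < rr z) (h1 : rr z ≤ 2 * q.p₁) (h2 : d.ch q k z ≠ 0) : False := by
  have hN : 0 < d.N q z := h.N_pos hq.M1 _
  have hnm := hq.nm1
  obtain ⟨s1, s2⟩ := sd_RS h2 hk (by linarith) hN
  have b1 := hT.N_nm hq.toGC h h0 h1 ht
  have hu := abs_le.1 (u_u0 h z)
  have hw := hq.wc
  have hR := hw.R
  have hl0 := l₀_nonneg hq.inf h
  have hl1 : d.l₀ q ≤ 1 / 100 * q.R := by
    have a1 := l₀_le hq.inf h
    have a2 := hq.inf.η1
    have a3 : q.η * q.R ≤ 1 / 200 * q.R := mul_le_mul_of_nonneg_right a2 (by linarith)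
    linarith
  have eth : d.uth q = 2 * d.l₀ q + 22 / 10 * q.R := rfl
  have eta' : d.uta q = 2 * d.l₀ q + 45 / 10 * q.R := rfl
  have etb : d.utb q = 2 * d.l₀ q + 47 / 10 * q.R := rfl
  have hup : d.u0 z ≤ 2 * d.l₀ q + 93 / 20 * q.R := hn.up
  obtain ⟨x4, x2⟩ := exp_q
  have hE0 := Real.exp_pos (d.u0 z)
  have c1 : d.u0 z < d.uta q - 2 := by
    by_contra hc
    rw [not_lt] at hc
    have c2 := h.N_top hw hl1 hc (by rw [etb]; linarith)
    have c3 : q.nm * Real.exp (d.u0 z) ≤ q.nm * Real.exp 8 * Real.exp (d.u0 z) := by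
      have h4 : 1 ≤ Real.exp 8 := Real.one_le_exp (by norm_num)
      have h5 : 0 ≤ q.nm * Real.exp (d.u0 z) := mul_nonneg (by linarith) hE0.le
      nlinarith
    have c4 : 0 < q.nm * Real.exp (d.u0 z) := mul_pos (by linarith) hE0
    linarith
  have c2 : d.u q z ≤ d.uta q := by linarith
  have c3 := h.top.y1 (d.u q z) s2.le c2
  have eN : d.N q z = deriv d.Φ (d.u q z) := rfl
  have eE : d.E q z = Real.exp (d.u q z) := rfl
  have hEu := Real.exp_pos (d.u q z)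
  rw [eN, eE] at s1
  rcases le_or_gt (d.uth q) (d.u0 z) with c4 | c4
  · have c5 := h.top.y1 (d.u0 z) c4 (by linarith)
    have c6 : deriv d.Φ (d.u q z) = deriv d.Φ (d.u0 z) * Real.exp (2 * (d.u q z - d.u0 z)) := by
      rw [c3, c5, mul_assoc, ← Real.exp_add]
      ring_nf
    have c7 : Real.exp (2 * (d.u q z - d.u0 z)) ≤ 17 / 10 :=
      (Real.exp_le_exp.2 (by linarith)).trans x2
    have c8 : Real.exp (d.u0 z) ≤ 13 / 10 * Real.exp (d.u q z) := by
      have : Real.exp (d.u0 z) = Real.exp (d.u0 z - d.u q z) * Real.exp (d.u q z) := by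
        rw [← Real.exp_add]
        ring_nf
      rw [this]
      exact mul_le_mul_of_nonneg_right ((Real.exp_le_exp.2 (by linarith)).trans x4) hEu.le
    have c9 : deriv d.Φ (d.u q z) ≤ deriv d.Φ (d.u0 z) * (17 / 10) := by
      rw [c6]
      exact mul_le_mul_of_nonneg_left c7 (h.N_pos hq.M1 _).le
    have c10 : q.nm / 4 * Real.exp (d.u0 z) ≤ q.nm / 4 * (13 / 10 * Real.exp (d.u q z)) :=
      mul_le_mul_of_nonneg_left c8 (by linarith)
    have c11 : 0 < q.nm * Real.exp (d.u q z) := mul_pos (by linarith) hEu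
    linarith
  · have c7 : Real.exp (2 * (d.u q z - d.uth q)) ≤ 17 / 10 :=
      (Real.exp_le_exp.2 (by linarith)).trans x2
    have c5 := h.N_le_th hw (u := d.uth q) le_rfl
    have hp : 0 ≤ (1 + q.ph.CT) * (q.ph.Cb * q.M₀) := by
      have := hw.CT
      have := hw.Cb
      have := hw.M₀
      positivity
    have c6 : deriv d.Φ (d.u q z) ≤ (1 + q.ph.CT) * (q.ph.Cb * q.M₀) * (17 / 10) := by
      rw [c3]
      exact mul_le_mul c5 c7 (Real.exp_pos _).le hp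
    have c8 := hw.e1
    have c9 : (17 / 10 : ℝ) ≤ Real.exp 10 := by
      have := Real.add_one_le_exp (10 : ℝ)
      linarith
    have c10 := mul_le_mul_of_nonneg_left c9 hp
    have c11 : q.ν₁ * Real.exp q.R ≤ q.nm * Real.exp (d.u q z) := by
      refine mul_le_mul ?_ (Real.exp_le_exp.2 ?_) (Real.exp_pos _).le (by linarith)
      · have := hq.k3
        have := hq.c₀1
        linarith
      · rw [eth] at s2
        linarith
    linarith

/-! ## The tubes on the layer `r ~ c₀` -/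

/-- The window on the layer `r ~ c₀`. -/
structure Lc (q : Cst) (d : Pk n) (z : VV n) : Prop where
  r0 : 99 / 100 * q.c₀ ≤ rr z
  r1 : rr z ≤ 203 / 100 * q.c₀
  /-- `0.2 r E ≤ N ≤ 7 c₀ E` -/
  lo : 1 / 5 * (rr z * d.E q z) ≤ d.N q z
  up : d.N q z ≤ 7 * q.c₀ * d.E q z
  K : 9 / 10 * d.N q z ≤ d.Kf q z

/-- The slope at `u0` on the layer `r ~ c₀`. -/
structure L0 (q : Cst) (d : Pk n) (z : VV n) : Prop where
  r0 : 99 / 100 * q.c₀ ≤ rr z
  r1 : rr z ≤ 203 / 100 * q.c₀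
  n1 : deriv d.Φ (d.u0 z) ≤ 12 / 10 * (rr z * Real.exp (d.u0 z))
  n2 : 8 / 10 * (rr z * Real.exp (d.u0 z)) ≤ deriv d.Φ (d.u0 z)

theorem L0.of (hq : DB n q) (h : PkOk q d) (hT : Tb q d z (4 * q.rT))
    (g1 : d.r2 z ≤ 4 * q.c₀ ^ 2) (g2 : q.c₀ ^ 2 ≤ d.r2 z) : L0 q d z := by
  have hc0 := hq.c₀0
  have hc1 := hq.c₀1
  have hr0 := rr_nn z
  have hr1 := (hq.met d h z).1
  have hr2 := (hq.met d h z).2
  have r0 : 99 / 100 * q.c₀ ≤ rr z := by
    by_contra hc
    rw [not_le] at hc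
    nlinarith
  have r1 : rr z ≤ 203 / 100 * q.c₀ := by
    by_contra hc
    rw [not_le] at hc
    nlinarith
  have hr : 0 < rr z := by linarith
  have hrs : rr z ^ 2 < 1 := by nlinarith
  have pn := H606.EP.pn_ok (e₁ := q.e₁) hq.rad.e0 (sq_nonneg (rr z)) hrs
  have e1 : 2 * rr z * H606.EP.prS₁ q.e₁ (rr z ^ 2) = prL q.e₁ (rr z) * prS q.e₁ (rr z ^ 2) :=
    hq.rad.pp.Ph1_L hr
  have hE0 := Real.exp_pos (d.u0 z)
  have eG : d.G0 q z = Real.exp (d.u0 z) * prS q.e₁ (rr z ^ 2) := by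
    unfold Pk.G0
    rw [rr_sq]
  have eLG : prL q.e₁ (rr z) * d.G0 q z =
      2 * rr z * H606.EP.prS₁ q.e₁ (rr z ^ 2) * Real.exp (d.u0 z) := by
    rw [eG, e1]
    ring
  have lo := hT.lo
  have up := hT.up
  rw [eLG] at lo up
  have eNG : d.NG q z = deriv d.Φ (d.u0 z) + d.G0 q z := rfl
  have hN0 : 0 < deriv d.Φ (d.u0 z) := h.N_pos hq.M1 _
  have hG0 : 0 ≤ d.G0 q z := PkOk.G0_nonneg hq.rad z
  have hNG : 0 < d.NG q z := by linarith
  have hre : 0 < rr z * Real.exp (d.u0 z) := by positivity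
  -- `G₀ ≤ 0.17 r E₀`
  have hG1 : d.G0 q z ≤ 17 / 100 * (rr z * Real.exp (d.u0 z)) := by
    rw [eG]
    have b0 : 8 * rr z ^ 2 ≤ 17 / 100 * rr z := by nlinarith
    have b1 : prS q.e₁ (rr z ^ 2) ≤ 17 / 100 * rr z := pn.hi.trans b0
    have b2 := mul_le_mul_of_nonneg_left b1 hE0.le
    linarith
  -- the slope at `u0`
  have b2 : H606.EP.prS₁ q.e₁ (rr z ^ 2) ≤ 55 / 100 := by
    have b0 : rr z ^ 2 ≤ 1 / 1000 := by nlinarith
    have := pn.h1
    linarith
  have b3 : 2 * rr z * H606.EP.prS₁ q.e₁ (rr z ^ 2) * Real.exp (d.u0 z) ≤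
      11 / 10 * (rr z * Real.exp (d.u0 z)) := by
    have := mul_le_mul_of_nonneg_left b2 hre.le
    linarith
  have b4 : rr z * Real.exp (d.u0 z) ≤
      2 * rr z * H606.EP.prS₁ q.e₁ (rr z ^ 2) * Real.exp (d.u0 z) := by
    have := mul_le_mul_of_nonneg_left pn.l1 hre.le
    linarith
  have b5 : 98 / 100 * d.NG q z ≤ (1 - 4 * q.rT - q.σ) * d.NG q z := by
    refine mul_le_mul_of_nonneg_right ?_ hNG.le
    linarith [hq.rT1, hq.inf.σ1]
  have b6 : (1 + 4 * q.rT + 3 * q.σ) * d.NG q z ≤ 102 / 100 * d.NG q z := by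
    refine mul_le_mul_of_nonneg_right ?_ hNG.le
    linarith [hq.rT1, hq.inf.σ1]
  refine ⟨r0, r1, ?_, ?_⟩
  · clear hr1 hr2 g1 g2 r0 r1 hrs b2 pn
    linarith
  · clear hr1 hr2 g1 g2 r0 r1 hrs b2 pn
    linarith

theorem e2_le : Real.exp 2 ≤ 8 := by
  have h3 := Real.exp_one_lt_d9
  have h4 : Real.exp 2 = Real.exp 1 * Real.exp 1 := by rw [← Real.exp_add]; norm_num
  have h5 := Real.exp_pos 1
  rw [h4]
  nlinarith

/-- The window on the layer `r ~ c₀`. -/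
theorem L0.win (hq : DB n q) (h : PkOk q d) (hn : NO q d z) (L : L0 q d z) :
    ∃ f : ℝ, 9 / 10 ≤ f ∧ f ≤ 2 ∧ Win d f (d.u0 z) := by
  have hc0 := hq.c₀0
  have hc1 := hq.c₀1
  have hE0 := Real.exp_pos (d.u0 z)
  have hN0 : 0 < deriv d.Φ (d.u0 z) := h.N_pos hq.M1 _
  have n1 := L.n1
  have n2 := L.n2
  have n3 : rr z * Real.exp (d.u0 z) ≤ 203 / 100 * q.c₀ * Real.exp (d.u0 z) :=
    mul_le_mul_of_nonneg_right L.r1 hE0.le
  have n4 : 99 / 100 * q.c₀ * Real.exp (d.u0 z) ≤ rr z * Real.exp (d.u0 z) :=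
    mul_le_mul_of_nonneg_right L.r0 hE0.le
  have hce : 0 < q.c₀ * Real.exp (d.u0 z) := by positivity
  have hw := hq.wc
  have hR := hw.R
  have hl0 := l₀_nonneg hq.inf h
  have hl1 : d.l₀ q ≤ 1 / 100 * q.R := by
    have a1 := l₀_le hq.inf h
    have a2 := hq.inf.η1
    have a3 : q.η * q.R ≤ 1 / 200 * q.R := mul_le_mul_of_nonneg_right a2 (by linarith)
    linarith
  have hup : d.u0 z ≤ 2 * d.l₀ q + 93 / 20 * q.R := hn.up
  have e2 := e2_le
  have hν := hw.ν₁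
  have w1 : Real.exp 2 * q.ν₁ * Real.exp (d.u0 z) ≤ deriv d.Φ (d.u0 z) := by
    have c1 : Real.exp 2 * q.ν₁ ≤ 8 / 100 * q.c₀ := by
      have := hq.k3
      have : Real.exp 2 * q.ν₁ ≤ 8 * q.ν₁ := mul_le_mul_of_nonneg_right e2 hν.le
      linarith
    have c2 := mul_le_mul_of_nonneg_right c1 hE0.le
    linarith
  have w2 : Real.exp 2 * deriv d.Φ (d.u0 z) ≤ q.nm * Real.exp (d.u0 z) := by
    have c1 : Real.exp 2 * deriv d.Φ (d.u0 z) ≤ 8 * deriv d.Φ (d.u0 z) :=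
      mul_le_mul_of_nonneg_right e2 hN0.le
    have c2 : q.c₀ * Real.exp (d.u0 z) ≤ 1 / 100 * Real.exp (d.u0 z) :=
      mul_le_mul_of_nonneg_right hc1 hE0.le
    have c3 : 1 * Real.exp (d.u0 z) ≤ q.nm * Real.exp (d.u0 z) :=
      mul_le_mul_of_nonneg_right hq.nm1 hE0.le
    linarith
  rcases h.win hw hl0 hl1 (u := d.u0 z) (by linarith) w1 w2 with ⟨-, -, w⟩ | ⟨-, -, w⟩
  · exact ⟨9 / 10, le_rfl, by norm_num, w⟩
  · exact ⟨2, by norm_num, le_rfl, w⟩

theorem Lc.of (hq : DB n q) (h : PkOk q d) (hn : NO q d z) (hT : Tb q d z (4 * q.rT))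
    (g1 : d.r2 z ≤ 4 * q.c₀ ^ 2) (g2 : q.c₀ ^ 2 ≤ d.r2 z) : Lc q d z := by
  have L := L0.of hq h hT g1 g2
  obtain ⟨f, f1, f2, W⟩ := L.win hq h hn
  have hc0 := hq.c₀0
  have hr : 0 < rr z := by linarith [L.r0]
  have hE0 := Real.exp_pos (d.u0 z)
  have hN0 : 0 < deriv d.Φ (d.u0 z) := h.N_pos hq.M1 _
  have n1 := L.n1
  have n2 := L.n2
  have n3 : rr z * Real.exp (d.u0 z) ≤ 203 / 100 * q.c₀ * Real.exp (d.u0 z) :=
    mul_le_mul_of_nonneg_right L.r1 hE0.le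
  have hu := u_u0 h z
  have hu' := abs_le.1 hu
  have m1 := W.k1 (d.u q z) (by linarith)
  have m2 := W.k2 (d.u q z) (by linarith)
  obtain ⟨x4, x2⟩ := exp_q
  have hfu : |f * (d.u q z - d.u0 z)| ≤ 1 / 2 := by
    rw [abs_mul, abs_of_nonneg (by linarith : (0 : ℝ) ≤ f)]
    nlinarith [abs_nonneg (d.u q z - d.u0 z)]
  have hfu' := abs_le.1 hfu
  have hEu := Real.exp_pos (d.u q z)
  -- exponentials
  have y1 : Real.exp (f * (d.u q z - d.u0 z)) ≤ 17 / 10 :=
    (Real.exp_le_exp.2 hfu'.2).trans x2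
  have y2 : 1 / 2 ≤ Real.exp (f * (d.u q z - d.u0 z)) := by
    have := Real.add_one_le_exp (f * (d.u q z - d.u0 z))
    linarith
  have y0 : Real.exp (d.u0 z) = Real.exp (d.u0 z - d.u q z) * Real.exp (d.u q z) := by
    rw [← Real.exp_add]
    ring_nf
  have y3 : Real.exp (d.u0 z) ≤ 13 / 10 * Real.exp (d.u q z) := by
    rw [y0]
    exact mul_le_mul_of_nonneg_right ((Real.exp_le_exp.2 (by linarith)).trans x4) hEu.le
  have y4 : 3 / 4 * Real.exp (d.u q z) ≤ Real.exp (d.u0 z) := by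
    rw [y0]
    refine mul_le_mul_of_nonneg_right ?_ hEu.le
    have := Real.add_one_le_exp (d.u0 z - d.u q z)
    linarith
  have z1 : deriv d.Φ (d.u q z) ≤ deriv d.Φ (d.u0 z) * (17 / 10) := by
    rw [m1]
    exact mul_le_mul_of_nonneg_left y1 hN0.le
  have z2 : deriv d.Φ (d.u0 z) * (1 / 2) ≤ deriv d.Φ (d.u q z) := by
    rw [m1]
    exact mul_le_mul_of_nonneg_left y2 hN0.le
  have z3 : 3 / 4 * (rr z * Real.exp (d.u q z)) ≤ rr z * Real.exp (d.u0 z) := by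
    have := mul_le_mul_of_nonneg_left y4 hr.le
    linarith
  have z4 : q.c₀ * Real.exp (d.u0 z) ≤ 13 / 10 * (q.c₀ * Real.exp (d.u q z)) := by
    have := mul_le_mul_of_nonneg_left y3 hc0.le
    linarith
  have hcE : 0 < q.c₀ * Real.exp (d.u q z) := by positivity
  have hrE : 0 < rr z * Real.exp (d.u q z) := by positivity
  clear y1 y2 y3 y4 y0 m1 hfu hfu' hu hu' x4 x2
  refine ⟨L.r0, L.r1, ?_, ?_, ?_⟩
  · show 1 / 5 * (rr z * Real.exp (d.u q z)) ≤ deriv d.Φ (d.u q z)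
    linarith
  · show deriv d.Φ (d.u q z) ≤ 7 * q.c₀ * Real.exp (d.u q z)
    linarith
  · show 9 / 10 * deriv d.Φ (d.u q z) ≤ deriv (deriv d.Φ) (d.u q z)
    rw [m2]
    exact mul_le_mul_of_nonneg_right f1 (h.N_pos hq.M1 _).le

theorem Lc.z0 (hq : DB n q) (h : PkOk q d) (hL : Lc q d z) (h1 : d.ch q .z0 z ≠ 0) : False := by
  have hN : 0 < d.N q z := h.N_pos hq.M1 _
  have hE : 0 < d.E q z := Real.exp_pos _
  have a1 := sd_z0 h1 (hq.cp d h) hq.aC0 hN
  have a2 := hL.up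
  have a3 := mul_le_mul_of_nonneg_right hq.k1 hE.le
  have a4 : 0 < q.c₀ * d.E q z := mul_pos hq.c₀0 hE
  linarith

theorem Lc.z2a (hq : DB n q) (h : PkOk q d) (hL : Lc q d z) (h1 : d.ch q .z2a z ≠ 0) : False := by
  have hE : 0 < d.E q z := Real.exp_pos _
  have hc0 := hq.c₀0
  have a1 := sd_z2a h1 (hq.cp d h)
  have a2 := hL.lo
  have a3 := hL.K
  have r0 := hL.r0
  have r1 := hL.r1
  have hr : 0 < rr z := by linarith
  have hrE : 0 < rr z * d.E q z := by positivity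
  have hcK := hq.cK0
  have a4 : q.cK * (18 / 100 * (rr z * d.E q z)) ≤ q.cK * d.Kf q z :=
    mul_le_mul_of_nonneg_left (by linarith) hcK.le
  have a5 : d.m q z ≤ 21 / 10 * q.c₀ * (rr z * d.E q z) := by
    unfold Pk.m
    have b1 := (hq.met d h z).2
    have b2 : d.r2 z ≤ 21 / 10 * q.c₀ * rr z := by nlinarith
    nlinarith
  have a6 : 100 * q.c₀ * (rr z * d.E q z) ≤ q.cK * (rr z * d.E q z) :=
    mul_le_mul_of_nonneg_right hq.k2 hrE.le
  have a7 : 0 < q.c₀ * (rr z * d.E q z) := by positivity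
  linarith

theorem Lc.z2b (hq : DB n q) (h : PkOk q d) (hL : Lc q d z) (h1 : d.ch q .z2b z ≠ 0) : False := by
  have hE : 0 < d.E q z := Real.exp_pos _
  have hN : 0 < d.N q z := h.N_pos hq.M1 _
  have hc0 := hq.c₀0
  have a1 := zB_log hq h (Or.inr rfl) h1
  have a2 := hL.lo
  have r0 := hL.r0
  have a3 : q.c₀ / 10 * d.E q z ≤ d.N q z := by
    have := mul_le_mul_of_nonneg_right r0 hE.le
    have : 0 < q.c₀ * d.E q z := by positivity
    linarith
  have a4 := Real.log_le_log (mul_pos (by linarith) hE) a3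
  rw [Real.log_mul (by positivity) hE.ne'] at a4
  have a5 : Real.log (d.E q z) = d.u q z := by
    unfold Pk.E
    rw [Real.log_exp]
  rw [a5] at a4
  have a6 := log_N hq h (d.u q z)
  have e : Real.log (d.N q z) = Real.log (deriv d.Φ (d.u q z)) := rfl
  rw [← e] at a6
  have a7 := hq.k5
  linarith

/-- **The tubes near the diagonal**: only `zI`. -/
theorem near_T (hq : DB n q) (h : PkOk q d) (hk : k = .z0 ∨ k = .z2a ∨ k = .z2b)
    (hj : j = .T1 ∨ j = .T2) (h1 : d.ch q k z ≠ 0) (h2 : d.ch q j z ≠ 0) : False := by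
  have hkn : Near k := by rcases hk with rfl | rfl | rfl <;> unfold Near <;> decide
  have hjo : Off j := by rcases hj with rfl | rfl <;> unfold Off <;> decide
  have hin : sd j .inf = false := by rcases hj with rfl | rfl <;> decide
  have g1 := sd_r h1 hkn (hq.cp d h)
  have g2 := sd_off h2 hjo (hq.cp d h)
  have hT : Tb q d z (4 * q.rT) := by
    rcases hj with rfl | rfl
    · exact (tb_of_x hq.toDC h (Or.inl rfl) h2).2.2.2
    · exact (tb_of_y hq.toDC h (Or.inl rfl) h2).2.2.2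
  have hL := Lc.of hq h (no_of hq.toDC h hin h2) hT g1 g2
  rcases hk with rfl | rfl | rfl
  · exact hL.z0 hq h h1
  · exact hL.z2a hq h h1
  · exact hL.z2b hq h h1

/-- **The reverse pass and the tubes.** -/
theorem RS_TP (hq : DB n q) (h : PkOk q d) (hk : RS k)
    (hj : j = .T1 ∨ j = .T2 ∨ j = .P1 ∨ j = .P2) (h1 : d.ch q k z ≠ 0) (h2 : d.ch q j z ≠ 0) :
    False := by
  have hp := Cst.p₁_ge hq.rad
  have hin : sd j .inf = false := by rcases hj with rfl | rfl | rfl | rfl <;> decide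
  have hT : 0 < rr z ∧ rr z < 7 / 5 * q.p₁ ∧ Tb q d z (4 * q.rT) := by
    rcases hj with rfl | rfl | rfl | rfl
    · obtain ⟨a, b, -, c⟩ := tb_of_x hq.toDC h (Or.inl rfl) h2
      exact ⟨a, b, c⟩
    · obtain ⟨a, b, -, c⟩ := tb_of_y hq.toDC h (Or.inl rfl) h2
      exact ⟨a, b, c⟩
    · obtain ⟨a, b, -, c⟩ := tb_of_x hq.toDC h (Or.inr rfl) h2
      exact ⟨a, b, c⟩
    · obtain ⟨a, b, -, c⟩ := tb_of_y hq.toDC h (Or.inr rfl) h2
      exact ⟨a, b, c⟩
  have hrT := hq.rT1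
  exact RS_tb hq h hk (no_of hq.toDC h hin h2) hT.2.2 (by linarith) hT.1 (by linarith) h1

end Vale.Agent.P088.R2.H552.E
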