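import Vale.Agent.P088.R2.H552.E.Dead
import Vale.Agent.P088.R2.H552.E.AA
import Vale.Agent.P088.R2.H844.E.PayAll

/-!
# P088, stage 3, EST': the dead pairs and the pairs of zone A, in helper844's form
-/

open Set Filter
open scoped ContDiff Topology

noncomputable section

namespace Vale.Agent.P088.R2.H552.E

open Vale.Agent.P088.R2.H31.EP
open Vale.Agent.P088.R2.H455.E
open Vale.Agent.P088.R2.H844.E (Dead PayF RowPayF deS)
open Vale.Agent.P088.R2.H867.EP

variable {n : ℕ}

theorem deS_dd : ∀ p ∈ deS, dd p.1 p.2 = true := by decide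

/-- **The dead pairs** (hypothesis `hD` of helper844's `payAll`). -/
theorem dead_deS (n : ℕ) : ∀ p ∈ deS, Dead n p.1 p.2 := fun p hp =>
  Dead.of (dead_all n (deS_dd p hp))

/-- **The pairs `{A1, A2} x {A1, A2, Af}`.** -/
theorem payF_A (hn : 1 ≤ n) {L : H455.E.Lc n} (hL : L.Ok) {k j : Zo} (hk : k = .A1 ∨ k = .A2)
    (hj : LA j) : PayF L k j := by
  obtain ⟨th, h1, h2⟩ := payA_all hn
  exact ⟨th, h1, fun e he hl => h2 hL e he hl hk hj⟩

end Vale.Agent.P088.R2.H552.E
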