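import Vale.Agent.P088.R2.H552.E.Dead
import Vale.Agent.P088.R2.H558.G.TopW

/-!
# P088, stage 3, EST': the dead pairs of the payment table, in helper558's form
-/

open Set Filter
open scoped ContDiff Topology

noncomputable section

namespace Vale.Agent.P088.R2.H552.E

open Vale.Agent.P088.R2.H31.EP
open Vale.Agent.P088.R2.H455.E
open Vale.Agent.P088.R2.H558.G
open Vale.Agent.P088.R2.H867.EP

variable {n : ℕ}

/-- **The dead pairs are paid.** -/
theorem payW_dead (M co : Fam n) {k j : Zo} (h : dd k j = true) : RowPayW M co k j :=
  RowPayW.dead (dead_all n h)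

end Vale.Agent.P088.R2.H552.E
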