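import Vale.Agent.P088.R2.H509.EP.Side
import Vale.Agent.P088.R2.H509.EP.Rad

/-!
# P088, stage 3, EST': the radii of the cuts

`H509.Rad.Ok.beyond'`: `L ≤ 1 - ε / 5` from `7/5 pr` on. `two_p₁_lt`: `2 p₁ < prR`.
-/

open Set Filter
open scoped ContDiff Topology

noncomputable section

namespace Vale.Agent.P088.R2.H509.Rad

open Vale.Agent.P088.R2.H644

variable {ε r₀ r t : ℝ}

/-- **Beyond `7/5 pr`**: `L ≤ 1 - ε / 5`. -/
theorem Ok.beyond' (h : Ok ε r₀) (ht : 0 ≤ t) (ht1 : t ≤ 1 / 4) (hr : 7 / 5 * pr ε r₀ t ≤ r) :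
    Lr ε r₀ r ≤ 1 - ε / 5 := by
  have hp := h.one_le ht
  have hp0 : 0 < pr ε r₀ t := by linarith
  have h3 := h.L_lt ht1 hp (h.gr_le ht)
  have h4 := h.big hp (h.L_le ht1 hp (h.gr_le ht))
  have he := h.e0
  have he1 := h.e1
  set p := pr ε r₀ t with hpd
  have hr0 : 0 < 7 / 5 * p := by linarith
  have hm : Lr ε r₀ r ≤ Lr ε r₀ (7 / 5 * p) := h.pp.antitone_Lf hr0 (by linarith : (0 : ℝ) < r) hr
  refine hm.trans ?_
  by_contra hc
  rw [not_le] at hc
  have hrate : ∀ s, p ≤ s → s ≤ 7 / 5 * p → ε ≤ ef 2 (4 / 5) ε r₀ (1 / 10) s := by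
    intro s h5 h6
    have s0 : 0 < s := by linarith
    have k1 : Lr ε r₀ (7 / 5 * p) ≤ Lr ε r₀ s := h.pp.antitone_Lf s0 hr0 h6
    have k2 : 1 - ε / 5 < Lr ε r₀ s := hc.trans_le k1
    have h3' : 1 ≤ gz 2 (4 / 5) ε r₀ s / (1 / 10) := by
      by_contra hcc
      rw [not_le] at hcc
      have h4' : ramp (gz 2 (4 / 5) ε r₀ s / (1 / 10)) ≤ 1 := by
        have := ramp_mono hcc.le
        rwa [ramp_one] at this
      have h5' : Lr ε r₀ s ≤ 4 / 5 * Real.exp (1 / 10) := by
        unfold Lr Lf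
        refine mul_le_mul_of_nonneg_left (Real.exp_le_exp.2 ?_) (by norm_num)
        linarith
      have h6' : Real.exp (1 / 10) ≤ 6 / 5 := by
        have h := Real.exp_bound' (x := 1 / 10) (by norm_num) (by norm_num) (n := 2)
          (by norm_num)
        norm_num [Finset.sum_range_succ, Nat.factorial] at h
        linarith
      linarith
    have h4' : 1 ≤ Real.log s - Real.log r₀ - 1 := by
      have h5' : r₀ * Real.exp 2 ≤ s := h.r2.trans (h4.trans h5)
      have h6' := Real.log_le_log (by have := h.r1; positivity) h5'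
      rw [Real.log_mul (by linarith [h.r1]) (Real.exp_pos _).ne', Real.log_exp] at h6'
      linarith
    unfold ef
    rw [kap_one h3', kap_one h4']
    have := ez_pos (θ := 2) (by norm_num) s0
    linarith
  have hanti : AntitoneOn (fun s => Real.log (Lr ε r₀ s) + ε * Real.log s)
      (Icc p (7 / 5 * p)) := by
    have hd : ∀ s, 0 < s → HasDerivAt (fun s => Real.log (Lr ε r₀ s) + ε * Real.log s)
        ((ε - ef 2 (4 / 5) ε r₀ (1 / 10) s) / s) s := by
      intro s s0
      have k := ((h.pp.hasDerivAt_Lf s0).log (h.Lpos s).ne').add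
        ((Real.hasDerivAt_log s0.ne').const_mul ε)
      refine k.congr_deriv ?_
      have hL : Lf 2 (4 / 5) ε r₀ (1 / 10) s ≠ 0 := (h.Lpos s).ne'
      field_simp
      ring
    refine antitoneOn_of_deriv_nonpos (convex_Icc _ _) (fun s hs =>
      (hd s (by linarith [hs.1])).continuousAt.continuousWithinAt) ?_ ?_
    · intro s hs
      rw [interior_Icc] at hs
      exact (hd s (by linarith [hs.1])).differentiableAt.differentiableWithinAt
    · intro s hs
      rw [interior_Icc] at hs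
      have s0 : 0 < s := by linarith [hs.1]
      rw [(hd s s0).deriv]
      exact div_nonpos_of_nonpos_of_nonneg (by linarith [hrate s hs.1.le hs.2.le]) s0.le
  have h5 := hanti (left_mem_Icc.2 (by linarith)) (right_mem_Icc.2 (by linarith))
    (by linarith : p ≤ 7 / 5 * p)
  simp only at h5
  rw [Real.log_mul (by norm_num) hp0.ne'] at h5
  have h6 : Real.log (Lr ε r₀ p) ≤ ε / 12 := by
    have := Real.log_le_sub_one_of_pos (h.Lpos p)
    linarith
  have h7 : 1 / 3 ≤ Real.log (7 / 5) := by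
    rw [Real.le_log_iff_exp_le (by norm_num)]
    have h7 := Real.exp_bound' (x := 1 / 3) (by norm_num) (by norm_num) (n := 5) (by norm_num)
    norm_num [Finset.sum_range_succ, Nat.factorial] at h7
    linarith
  have h8 : Real.log (Lr ε r₀ (7 / 5 * p)) ≤ -(1 / 4 * ε) := by nlinarith
  have h9 : Lr ε r₀ (7 / 5 * p) ≤ Real.exp (-(1 / 4 * ε)) := by
    rw [← Real.exp_log (h.Lpos (7 / 5 * p))]
    exact Real.exp_le_exp.2 h8
  have h10 : Real.exp (-(1 / 4 * ε)) ≤ 1 - ε / 5 := by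
    have k1 : 1 + 1 / 4 * ε ≤ Real.exp (1 / 4 * ε) := by
      have := Real.add_one_le_exp (1 / 4 * ε)
      linarith
    rw [Real.exp_neg, inv_le_comm₀ (Real.exp_pos _) (by linarith)]
    refine le_trans ?_ k1
    rw [inv_le_comm₀ (by linarith) (by linarith), inv_eq_one_div, div_le_iff₀ (by linarith)]
    nlinarith
  linarith

/-- `2 pr < r₀ e^(2 + (a + δ) / ε)`. -/
theorem Ok.two_pr_lt (h : Ok ε r₀) (ht : 0 < t) (ht1 : t ≤ 1 / 4) :
    2 * pr ε r₀ t < r₀ * Real.exp (2 + (az 2 (4 / 5) r₀ + 1 / 10) / ε) := by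
  have hp := h.one_le ht.le
  have hp0 : 0 < pr ε r₀ t := by linarith
  have he := h.e0
  have he1 := h.e1
  have h4 := h.big hp (h.L_le ht1 hp (h.gr_le ht.le))
  have hg := h.gr_eq ht.le ht1
  set p := pr ε r₀ t with hpd
  have hr1 := h.r1
  have hrp : r₀ ≤ p := by
    refine le_trans ?_ (h.r2.trans h4)
    have : (1 : ℝ) ≤ Real.exp 2 := Real.one_le_exp (by norm_num)
    nlinarith
  have hL : 1 < Lr ε r₀ p := by
    have hL0 := h.Lpos p
    by_contra hc
    rw [not_lt] at hc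
    have h1 : 1 ≤ 1 / Lr ε r₀ p := by rwa [le_div_iff₀ hL0, one_mul]
    have h2 : gr ε r₀ p ≤ 0 := by
      unfold gr
      nlinarith
    linarith
  have h3 : 1 ≤ gz 2 (4 / 5) ε r₀ p / (1 / 10) := by
    by_contra hc
    rw [not_le] at hc
    have h4 : ramp (gz 2 (4 / 5) ε r₀ p / (1 / 10)) ≤ 1 := by
      have := ramp_mono hc.le
      rwa [ramp_one] at this
    have h5 : Lr ε r₀ p ≤ 4 / 5 * Real.exp (1 / 10) := by
      unfold Lr Lf
      refine mul_le_mul_of_nonneg_left (Real.exp_le_exp.2 ?_) (by norm_num)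
      linarith
    linarith [exp_tenth]
  have h5 : 0 ≤ gz 2 (4 / 5) ε r₀ p := by linarith
  have h6 : az 2 (4 / 5) p ≤ az 2 (4 / 5) r₀ :=
    h.pp.antitone_az (show (0 : ℝ) < r₀ by linarith) hp0 hrp
  have h7 : ε * (Real.log p - Real.log r₀ - 1) ≤ az 2 (4 / 5) r₀ := by
    have h8 := mul_le_mul_of_nonneg_left (le_ramp (Real.log p - Real.log r₀ - 1)) he.le
    unfold gz at h5
    linarith
  have h8 : Real.log p ≤ Real.log r₀ + 1 + az 2 (4 / 5) r₀ / ε := by
    have h9 : Real.log p - Real.log r₀ - 1 ≤ az 2 (4 / 5) r₀ / ε := by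
      rw [le_div_iff₀ he]
      linarith
    linarith
  have h9 : 10 ≤ 1 / 10 / ε := by
    rw [le_div_iff₀ he]
    linarith
  have h10 : Real.log 2 < 1 := by
    have := Real.log_two_lt_d9
    linarith
  have h11 : Real.log (2 * p) < Real.log (r₀ * Real.exp (2 + (az 2 (4 / 5) r₀ + 1 / 10) / ε)) := by
    rw [Real.log_mul (by norm_num) hp0.ne', Real.log_mul (by linarith) (Real.exp_pos _).ne',
      Real.log_exp, add_div]
    linarith
  exact (Real.log_lt_log_iff (by linarith) (by positivity)).1 h11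

end Vale.Agent.P088.R2.H509.Rad

namespace Vale.Agent.P088.R2.H31.EP

variable {q : Cst}

/-- `2 p₁ < prR`. -/
theorem Cst.two_p₁_lt (h : H509.Rad.Ok q.e₁ rp) : 2 * q.p₁ < prR q.e₁ :=
  h.two_pr_lt (by norm_num) le_rfl

end Vale.Agent.P088.R2.H31.EP
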