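import Vale.Agent.P088.R2.H552.E.Rads
import Vale.Agent.P088.R2.H710.EP.GQ

/-!
# P088, stage 3, EST': tubes and passes, up to `|x - y| ≤ 3 p₁`

`tb_x3`, `tb_y3`: as helper710's `tb_x`, `tb_y`, for `|x - y| ≤ 3 p₁`. `lt_far3`: there
`|x - y| < 7/5 p₁`. `rr_le`, `rr_ge`: `|x - y|` against `r² = 2 ρ`.
-/

open Set Filter
open scoped ContDiff Topology

noncomputable section

namespace Vale.Agent.P088.R2.H552.E

open Vale.Agent.P088.LR Vale.Agent.P088.R2.H31.EP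
open Vale.Agent.P088.HY hiding rr
open Vale.Agent.P088.R2.H710.GP
open Vale.Agent.P088.R2.H404.INF

variable {n : ℕ}

/-- The conditions on the constants. -/
structure GC3 (q : Cst) : Prop extends GC q where
  c₀0 : 0 < q.c₀
  M3 : ∀ r, 0 < r → r ≤ 3 * q.p₁ → 2 * (prL q.e₁ r * prS q.e₁ (r ^ 2)) ≤ q.M₀
  R3 : 3 * q.p₁ ≤ q.R

theorem ev3 : EvC GC3 := by
  have c5 : EvC fun q => H509.Rad.Ok q.e₁ rp → ∀ r, 0 < r → r ≤ 3 * q.p₁ →
      2 * (prL q.e₁ r * prS q.e₁ (r ^ 2)) ≤ q.M₀ :=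
    EvC.at_M₀ (fun q t => H509.Rad.Ok q.e₁ rp → ∀ r, 0 < r → r ≤ 3 * q.p₁ →
      2 * (prL q.e₁ r * prS q.e₁ (r ^ 2)) ≤ t) fun q => by
      by_cases h : H509.Rad.Ok q.e₁ rp
      · obtain ⟨C, hC⟩ := LS_bdd q.e₁ h (3 * q.p₁)
        exact ev_top (2 * C) fun t ht _ r h0 h1 => by linarith [hC r h0 h1]
      · exact Eventually.of_forall fun _ h1 => absurd h1 h
  have c7 : EvC fun q => 3 * q.p₁ ≤ q.R :=
    EvC.at_R (fun q t => 3 * q.p₁ ≤ t) fun q => ev_top (3 * q.p₁) fun t ht => ht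
  refine ((evG.and EvC.pos).and (c5.and c7)).mono ?_
  rintro q ⟨⟨a1, ⟨-, -, -, -, -, c0, -⟩, -⟩, b1, b2⟩
  exact { toGC := a1, c₀0 := c0, M3 := b1 a1.rad, R3 := b2 }

variable {q : Cst} {d : Pk n} {z : VV n} {t : ℝ}

/-- The level is positive where `L G₀ ≥ (9/10) NG`. -/
theorem u0_pos3 (hq : GC3 q) (h : PkOk q d) (h0 : 0 < rr z) (h1 : rr z ≤ 3 * q.p₁)
    (h2 : 9 / 10 * d.NG q z ≤ prL q.e₁ (rr z) * d.G0 q z) : 0 ≤ d.u0 z := by
  have hM := hq.M3 _ h0 h1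
  have hN := h.NG_ge hq.rad z
  have hM1 := hq.M1
  unfold Pk.G0 at h2
  rw [← rr_sq] at h2
  by_contra hc
  have he : Real.exp (d.u0 z) ≤ 1 := Real.exp_le_one_iff.2 (not_le.1 hc).le
  have hS : 0 < prS q.e₁ (rr z ^ 2) := hq.rad.pp.S_pos (by positivity)
  have hL : 0 < prL q.e₁ (rr z) := hq.rad.Lpos _
  have h3 : prL q.e₁ (rr z) * (Real.exp (d.u0 z) * prS q.e₁ (rr z ^ 2)) ≤
      prL q.e₁ (rr z) * (1 * prS q.e₁ (rr z ^ 2)) :=
    mul_le_mul_of_nonneg_left (mul_le_mul_of_nonneg_right he hS.le) hL.le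
  nlinarith

theorem tb_x3 (hq : GC3 q) (h : PkOk q d) (hn : NO q d z) (h0 : 0 < rr z) (h1 : rr z ≤ 3 * q.p₁)
    (ht : t ≤ 1 / 20) (hx : en (gx d q z) ≤ t * d.NG q z) : Tb q d z t := by
  have hNG := NG_pos hq.toGC h z
  have hg := gl_near hq.inf h hn.g1 hn.w1
  rw [gx_eq h hq.rad.e0] at hx
  have k1 := (en_lo (gl d.l z.1) (cq d q z • (z.1 - z.2)) hNG.le).trans hx
  have k2 := (en_lo' (gl d.l z.1) (cq d q z • (z.1 - z.2)) hNG.le).trans hx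
  rw [en_cq hq.rad h0] at k1 k2
  have k3 := mul_le_mul_of_nonneg_left hg.1 hNG.le
  have hu : 0 ≤ d.u0 z := u0_pos3 hq h h0 h1 (by nlinarith)
  have hd := nd_of hq.inf h hn hu
  have k4 := mul_le_mul_of_nonneg_left hd.g1 hNG.le
  have k5 := mul_le_mul_of_nonneg_left hd.g1' hNG.le
  exact ⟨hd, by nlinarith, by nlinarith⟩

theorem tb_y3 (hq : GC3 q) (h : PkOk q d) (hn : NO q d z) (h0 : 0 < rr z) (h1 : rr z ≤ 3 * q.p₁)
    (ht : t ≤ 1 / 20) (hx : en (gy d q z) ≤ t * d.NG q z) : Tb q d z t := by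
  have hNG := NG_pos hq.toGC h z
  have hg := gl_near hq.inf h hn.g2 hn.w2
  have e1 : gy d q z = d.NG q z • gl d.l z.2 + (-(cq d q z)) • (z.1 - z.2) := by
    rw [gy_eq h hq.rad.e0, neg_smul, sub_eq_add_neg]
  have e2 : en ((-(cq d q z)) • (z.1 - z.2)) = prL q.e₁ (rr z) * d.G0 q z := by
    rw [← en_cq hq.rad h0, en_sm, en_sm, abs_neg]
  rw [e1] at hx
  have k1 := (en_lo (gl d.l z.2) ((-(cq d q z)) • (z.1 - z.2)) hNG.le).trans hx
  have k2 := (en_lo' (gl d.l z.2) ((-(cq d q z)) • (z.1 - z.2)) hNG.le).trans hx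
  rw [e2] at k1 k2
  have k3 := mul_le_mul_of_nonneg_left hg.1 hNG.le
  have hu : 0 ≤ d.u0 z := u0_pos3 hq h h0 h1 (by nlinarith)
  have hd := nd_of hq.inf h hn hu
  have k4 := mul_le_mul_of_nonneg_left hd.g2 hNG.le
  have k5 := mul_le_mul_of_nonneg_left hd.g2' hNG.le
  exact ⟨hd, by nlinarith, by nlinarith⟩

/-- **No short gradient beyond `(7/5) p₁`.** -/
theorem lt_far3 (hq : GC q) (h : PkOk q d) (hT : Tb q d z t) (ht : t ≤ 4 * q.rT) :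
    rr z < 7 / 5 * q.p₁ := by
  by_contra hc
  have hNG := NG_pos hq h z
  have hb : prL q.e₁ (rr z) ≤ 1 - q.e₁ / 5 :=
    hq.rad.beyond' (by norm_num) (by norm_num) (not_lt.1 hc)
  have hG := PkOk.G0_nonneg (d := d) hq.rad z
  have hN := h.N_pos hq.M1 (d.u0 z)
  have k1 := hT.lo
  have he := hq.rad.e0
  have h2 := hq.rT2
  have h3 := hq.σ1
  have k2 := mul_le_mul_of_nonneg_right hb hG
  have k3 : (1 - q.e₁ / 10) * d.NG q z ≤ (1 - t - q.σ) * d.NG q z :=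
    mul_le_mul_of_nonneg_right (by linarith) hNG.le
  have k4 : d.NG q z = deriv d.Φ (d.u0 z) + d.G0 q z := rfl
  have he1 := hq.rad.e1
  nlinarith

/-! ## The metric -/

/-- `0.99 |x - y|² ≤ 2 ρ ≤ 1.01 |x - y|²`. -/
theorem ev_met (n : ℕ) : EvC fun q => ∀ d : Pk n, PkOk q d → ∀ z : VV n,
    99 / 100 * rr z ^ 2 ≤ d.r2 z ∧ d.r2 z ≤ 101 / 100 * rr z ^ 2 := by
  refine (EvC.metric n (fun _ => 1 / 100) fun _ => rfl).mono fun q hq d h z => ?_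
  obtain ⟨-, -, -, -, h2⟩ := hq (by norm_num) d h
  have h3 := abs_le.1 (h2 z)
  have e : d.r2 z = 2 * H464.Cu.rq (gi d.s₁) z := rfl
  rw [e, rr_sq]
  constructor <;> linarith

end Vale.Agent.P088.R2.H552.E
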